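import Mathlib

namespace Vale.Agent.Lib.P134

open Laplacian

variable {E : Type*} [NormedAddCommGroup E] [InnerProductSpace ℝ E] [FiniteDimensional ℝ E]

/-- The Laplacian commutes with translations. -/
lemma laplacian_comp_add_right (f : E → ℝ) (a x : E) :
    Δ (fun z => f (z + a)) x = Δ f (x + a) := by
  rw [InnerProductSpace.laplacian_eq_iteratedFDeriv_stdOrthonormalBasis,
    InnerProductSpace.laplacian_eq_iteratedFDeriv_stdOrthonormalBasis]
  simp [iteratedFDeriv_comp_add_right]

/-- If `f` is invariant under translation by `a`, so is its Laplacian. -/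
lemma laplacian_invariant (f : E → ℝ) (a : E) (h : ∀ z, f (z + a) = f z) (x : E) :
    Δ f (x + a) = Δ f x := by
  rw [← laplacian_comp_add_right]
  have : (fun z => f (z + a)) = f := funext h
  rw [this]

/-- The four-point identity for additively split solutions of the Allen-Cahn equation. -/
theorem split_core (u F G : E → ℝ) (hF : ContDiff ℝ 2 F) (hG : ContDiff ℝ 2 G)
    (hu : ∀ x, u x = F x + G x) (heq : ∀ x, Δ u x = u x ^ 3 - u x)
    (v w : E) (hFw : ∀ z, F (z + w) = F z) (hGv : ∀ z, G (z + v) = G z) (x : E) :
    (F x - F (x + v)) * (G x - G (x + w)) * (F x + F (x + v) + G x + G (x + w)) = 0 := by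
  have huFG : u = F + G := funext hu
  have hlap : ∀ y, Δ F y + Δ G y = (F y + G y) ^ 3 - (F y + G y) := by
    intro y
    have h1 := heq y
    rw [hu y] at h1
    rw [← h1, huFG]
    exact (ContDiffAt.laplacian_add hF.contDiffAt hG.contDiffAt).symm
  have e1 := hlap x
  have e2 := hlap (x + v)
  have e3 := hlap (x + w)
  have e4 := hlap (x + v + w)
  have i1 : Δ G (x + v) = Δ G x := laplacian_invariant G v hGv x
  have i2 : Δ F (x + w) = Δ F x := laplacian_invariant F w hFw x
  have i3 : Δ F (x + v + w) = Δ F (x + v) := laplacian_invariant F w hFw (x + v)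
  have i4 : Δ G (x + v + w) = Δ G (x + w) := by
    have : x + v + w = x + w + v := by abel
    rw [this]
    exact laplacian_invariant G v hGv (x + w)
  have j1 : G (x + v) = G x := hGv x
  have j2 : F (x + w) = F x := hFw x
  have j3 : F (x + v + w) = F (x + v) := hFw (x + v)
  have j4 : G (x + v + w) = G (x + w) := by
    have : x + v + w = x + w + v := by abel
    rw [this]
    exact hGv (x + w)
  rw [i1, j1] at e2
  rw [i2, j2] at e3
  rw [i3, i4, j3, j4] at e4
  linear_combination (-1 / 3 : ℝ) * e1 + (1 / 3 : ℝ) * e2 + (1 / 3 : ℝ) * e3 - (1 / 3 : ℝ) * e4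

/-- Additively split solutions `u = F + g ∘ l`, with `F` invariant in the direction `e`
(where `l e = 1`) and `u` strictly increasing in the direction `e`: `F` is constant. -/
theorem additive_core (u F : E → ℝ) (g : ℝ → ℝ) (e : E) (l : E →L[ℝ] ℝ) (hle : l e = 1)
    (hu : ContDiff ℝ 2 u) (heq : ∀ x, Δ u x = u x ^ 3 - u x)
    (hsum : ∀ x, u x = F x + g (l x))
    (hFe : ∀ (z : E) (s : ℝ), F (z + s • e) = F z)
    (hmono : ∀ x, 0 < fderiv ℝ u x e) : ∀ x y, F x = F y := by
  have hF2 : ContDiff ℝ 2 F := by
    have : F = fun x => u (x - l x • e) - g 0 := by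
      funext x
      have h1 := hsum (x - l x • e)
      have h2 : F (x - l x • e) = F x := by
        have := hFe x (-(l x))
        rw [neg_smul, ← sub_eq_add_neg] at this
        exact this
      have h3 : l (x - l x • e) = 0 := by simp [hle]
      rw [h2, h3] at h1
      rw [h1]; ring
    rw [this]
    exact (hu.comp (contDiff_id.sub (l.contDiff.smul contDiff_const))).sub contDiff_const
  have hGeq : (fun x => g (l x)) = fun x => u (l x • e) - F 0 := by
    funext x
    have h1 := hsum (l x • e)
    have h2 : F (l x • e) = F 0 := by
      have := hFe 0 (l x)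
      rw [zero_add] at this
      exact this
    have h3 : l (l x • e) = l x := by simp [hle]
    rw [h2, h3] at h1
    rw [h1]; ring
  have hG2 : ContDiff ℝ 2 (fun x => g (l x)) := by
    rw [hGeq]
    exact (hu.comp (l.contDiff.smul contDiff_const)).sub contDiff_const
  have hgc : Continuous g := by
    have : g = fun t : ℝ => u (t • e) - F 0 := by
      funext t
      have h1 := hsum (t • e)
      have h2 : F (t • e) = F 0 := by
        have := hFe 0 t
        rw [zero_add] at this
        exact this
      have h3 : l (t • e) = t := by simp [hle]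
      rw [h2, h3] at h1
      rw [h1]; ring
    rw [this]
    exact (hu.continuous.comp (continuous_id.smul continuous_const)).sub continuous_const
  by_contra hcon
  push Not at hcon
  obtain ⟨x, y, hxy⟩ := hcon
  -- the four-point identity
  have key : ∀ s t : ℝ, (F x - F y) * (g s - g t) * (F x + F y + g s + g t) = 0 := by
    intro s t
    have hv : l ((y - x) - l (y - x) • e) = 0 := by simp [hle]
    have h := split_core u F (fun z => g (l z)) hF2 hG2 hsum heq
      ((y - x) - l (y - x) • e) ((t - s) • e) (fun z => hFe z (t - s))
      (fun z => by simp only [map_add, hv, add_zero]) (x + (s - l x) • e)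
    have a1 : F (x + (s - l x) • e) = F x := hFe x _
    have a2 : F (x + (s - l x) • e + ((y - x) - l (y - x) • e)) = F y := by
      have : x + (s - l x) • e + ((y - x) - l (y - x) • e)
          = y + (s - l x - l (y - x)) • e := by
        rw [sub_smul (s - l x) (l (y - x)) e]; abel
      rw [this]; exact hFe y _
    have a3 : l (x + (s - l x) • e) = s := by simp [hle]
    have a4 : l (x + (s - l x) • e + (t - s) • e) = t := by simp [hle]
    simp only [a1, a2, a3, a4] at h
    exact h
  -- hence `g` is constant
  have hgconst : ∀ s t, g s = g t := by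
    intro s t
    by_contra hst
    have hsub : F x - F y ≠ 0 := sub_ne_zero.mpr hxy
    have hst' : g s - g t ≠ 0 := sub_ne_zero.mpr hst
    have k1 : F x + F y + g s + g t = 0 := by
      have := key s t
      rcases mul_eq_zero.mp this with h | h
      · rcases mul_eq_zero.mp h with h | h
        · exact absurd h hsub
        · exact absurd h hst'
      · exact h
    have hmem : (g s + g t) / 2 ∈ Set.uIcc (g s) (g t) := by
      rw [Set.mem_uIcc]
      rcases le_total (g s) (g t) with h | h
      · left; constructor <;> linarith
      · right; constructor <;> linarith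
    obtain ⟨r, -, hr⟩ := intermediate_value_uIcc (hgc.continuousOn) hmem
    have hsr : g s - g r ≠ 0 := by
      rw [hr]
      intro h0
      apply hst'
      linarith
    have k2 : F x + F y + g s + g r = 0 := by
      have := key s r
      rcases mul_eq_zero.mp this with h | h
      · rcases mul_eq_zero.mp h with h | h
        · exact absurd h hsub
        · exact absurd h hsr
      · exact h
    apply hst'
    rw [hr] at k2
    linarith
  -- so `u` is constant in the direction `e`, contradicting monotonicity
  have hline : ∀ τ : ℝ, u (x + τ • e) = u x := by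
    intro τ
    rw [hsum, hsum, hFe x τ, hgconst (l (x + τ • e)) (l x)]
  have hd : HasDerivAt (fun τ : ℝ => u (x + τ • e)) (fderiv ℝ u x e) 0 :=
    ((hu.differentiable (by norm_num) x).hasFDerivAt).hasLineDerivAt e
  have hd0 : HasDerivAt (fun τ : ℝ => u (x + τ • e)) 0 0 := by
    have : (fun τ : ℝ => u (x + τ • e)) = fun _ => u x := funext hline
    rw [this]
    exact hasDerivAt_const 0 (u x)
  have := hd.unique hd0
  have h0 := hmono x
  rw [this] at h0
  exact lt_irrefl 0 h0

end Vale.Agent.Lib.P134
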