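import Mathlib
import Vale.Agent.Lib.P134.Split

namespace Vale.Agent.Lib.P134

open Laplacian

variable {E : Type*} [NormedAddCommGroup E] [InnerProductSpace ℝ E]

/-- A differentiable function invariant under translations along `v` has zero derivative
in the direction `v`. -/
lemma fderiv_eq_zero_of_invariant (f : E → ℝ) (hf : Differentiable ℝ f) (v : E)
    (h : ∀ (z : E) (τ : ℝ), f (z + τ • v) = f z) (x : E) : fderiv ℝ f x v = 0 := by
  have hd : HasDerivAt (fun τ : ℝ => f (x + τ • v)) (fderiv ℝ f x v) 0 :=
    ((hf x).hasFDerivAt).hasLineDerivAt v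
  have hd0 : HasDerivAt (fun τ : ℝ => f (x + τ • v)) 0 0 := by
    have : (fun τ : ℝ => f (x + τ • v)) = fun _ => f x := funext (h x)
    rw [this]
    exact hasDerivAt_const 0 (f x)
  exact hd.unique hd0

/-- Second derivative of a product, evaluated on the diagonal. -/
lemma second_fderiv_mul (F G : E → ℝ) (hF : ContDiff ℝ 2 F) (hG : ContDiff ℝ 2 G) (x v : E) :
    fderiv ℝ (fderiv ℝ (fun y => F y * G y)) x v v
      = F x * fderiv ℝ (fderiv ℝ G) x v v + G x * fderiv ℝ (fderiv ℝ F) x v v
        + 2 * (fderiv ℝ F x v * fderiv ℝ G x v) := by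
  have hFd : Differentiable ℝ F := hF.differentiable (by norm_num)
  have hGd : Differentiable ℝ G := hG.differentiable (by norm_num)
  have hF' : Differentiable ℝ (fderiv ℝ F) :=
    (hF.fderiv_right (m := 1) (by norm_num)).differentiable (by norm_num)
  have hG' : Differentiable ℝ (fderiv ℝ G) :=
    (hG.fderiv_right (m := 1) (by norm_num)).differentiable (by norm_num)
  have h1 : fderiv ℝ (fun y => F y * G y)
      = fun y => F y • fderiv ℝ G y + G y • fderiv ℝ F y := by
    funext y
    exact fderiv_fun_mul (hFd y) (hGd y)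
  rw [h1]
  have h2 : HasFDerivAt (fun y => F y • fderiv ℝ G y + G y • fderiv ℝ F y)
      ((F x • fderiv ℝ (fderiv ℝ G) x + (fderiv ℝ F x).smulRight (fderiv ℝ G x))
        + (G x • fderiv ℝ (fderiv ℝ F) x + (fderiv ℝ G x).smulRight (fderiv ℝ F x))) x :=
    ((hFd x).hasFDerivAt.smul (hG' x).hasFDerivAt).add
      ((hGd x).hasFDerivAt.smul (hF' x).hasFDerivAt)
  rw [h2.fderiv]
  simp only [add_apply, smul_apply,
    ContinuousLinearMap.smulRight_apply, smul_eq_mul]
  ring

/-- Product rule for the Laplacian when the cross term vanishes along an orthonormal basis. -/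
lemma laplacian_mul_of_cross [FiniteDimensional ℝ E] {ι : Type*} [Fintype ι] (b : OrthonormalBasis ι ℝ E) (F G : E → ℝ)
    (hF : ContDiff ℝ 2 F) (hG : ContDiff ℝ 2 G)
    (hcross : ∀ i, (∀ x, fderiv ℝ F x (b i) = 0) ∨ (∀ x, fderiv ℝ G x (b i) = 0)) (x : E) :
    Δ (fun y => F y * G y) x = F x * Δ G x + G x * Δ F x := by
  simp only [InnerProductSpace.laplacian_eq_iteratedFDeriv_orthonormalBasis _ b]
  rw [Finset.mul_sum, Finset.mul_sum, ← Finset.sum_add_distrib]
  refine Finset.sum_congr rfl (fun i _ => ?_)
  simp only [iteratedFDeriv_two_apply, Matrix.cons_val_zero, Matrix.cons_val_one]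
  rw [second_fderiv_mul F G hF hG x (b i)]
  rcases hcross i with h | h
  · rw [h x]; ring
  · rw [h x]; ring

/-- The four-point identity for multiplicatively split solutions. -/
theorem prod_core [FiniteDimensional ℝ E] {ι : Type*} [Fintype ι] (b : OrthonormalBasis ι ℝ E)
    (u F G : E → ℝ) (hF : ContDiff ℝ 2 F) (hG : ContDiff ℝ 2 G)
    (hcross : ∀ i, (∀ x, fderiv ℝ F x (b i) = 0) ∨ (∀ x, fderiv ℝ G x (b i) = 0))
    (hu : ∀ x, u x = F x * G x) (heq : ∀ x, Δ u x = u x ^ 3 - u x)
    (v w : E) (hFw : ∀ z, F (z + w) = F z) (hGv : ∀ z, G (z + v) = G z) (x : E) :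
    F x * F (x + v) * G x * G (x + w) * (F x ^ 2 - F (x + v) ^ 2) * (G x ^ 2 - G (x + w) ^ 2)
      = 0 := by
  have huFG : u = fun y => F y * G y := funext hu
  have hlap : ∀ y, F y * Δ G y + G y * Δ F y = (F y * G y) ^ 3 - F y * G y := by
    intro y
    have h1 := heq y
    rw [hu y] at h1
    rw [← h1, huFG]
    exact (laplacian_mul_of_cross b F G hF hG hcross y).symm
  have e1 := hlap x
  have e2 := hlap (x + v)
  have e3 := hlap (x + w)
  have e4 := hlap (x + v + w)
  have i1 : Δ G (x + v) = Δ G x := laplacian_invariant G v hGv x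
  have i2 : Δ F (x + w) = Δ F x := laplacian_invariant F w hFw x
  have i3 : Δ F (x + v + w) = Δ F (x + v) := laplacian_invariant F w hFw (x + v)
  have i4 : Δ G (x + v + w) = Δ G (x + w) := by
    have : x + v + w = x + w + v := by abel
    rw [this]
    exact laplacian_invariant G v hGv (x + w)
  have j1 : G (x + v) = G x := hGv x
  have j2 : F (x + w) = F x := hFw x
  have j3 : F (x + v + w) = F (x + v) := hFw (x + v)
  have j4 : G (x + v + w) = G (x + w) := by
    have : x + v + w = x + w + v := by abel
    rw [this]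
    exact hGv (x + w)
  rw [i1, j1] at e2
  rw [i2, j2] at e3
  rw [i3, i4, j3, j4] at e4
  linear_combination (-(F (x + v) * G (x + w))) * e1 + (F x * G (x + w)) * e2
    + (F (x + v) * G x) * e3 - (F x * G x) * e4

/-- Multiplicatively split solutions `u = F * g ∘ ⟪e, ·⟫`, with `F` invariant in the unit
direction `e = b i₀` and `u` strictly increasing in the direction `e`: `F` is constant. -/
theorem multiplicative_core [FiniteDimensional ℝ E] {ι : Type*} [Fintype ι]
    (b : OrthonormalBasis ι ℝ E) (i₀ : ι) (u F : E → ℝ) (g : ℝ → ℝ)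
    (hu : ContDiff ℝ 2 u) (heq : ∀ x, Δ u x = u x ^ 3 - u x)
    (hprod : ∀ x, u x = F x * g (inner ℝ (b i₀) x))
    (hFe : ∀ (z : E) (s : ℝ), F (z + s • b i₀) = F z)
    (hmono : ∀ x, 0 < fderiv ℝ u x (b i₀)) : ∀ x y, F x = F y := by
  set e := b i₀ with he
  have hee : inner ℝ e e = (1 : ℝ) := by
    rw [real_inner_self_eq_norm_sq, he, b.orthonormal.1 i₀]; norm_num
  have hl : ∀ (x : E) (s : ℝ), inner ℝ e (x + s • e) = inner ℝ e x + s := by
    intro x s; rw [inner_add_right, inner_smul_right, hee, mul_one]
  -- strict monotonicity along lines in the direction `e`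
  have hmonoline : ∀ x, StrictMono (fun τ : ℝ => u (x + τ • e)) := by
    intro x
    apply strictMono_of_deriv_pos
    intro τ
    have hd : HasDerivAt (fun τ : ℝ => u (x + τ • e)) (fderiv ℝ u (x + τ • e) e) τ := by
      have h1 : HasDerivAt (fun τ : ℝ => x + τ • e) e τ := by
        simpa using ((hasDerivAt_id τ).smul_const e).const_add x
      exact ((hu.differentiable (by norm_num) (x + τ • e)).hasFDerivAt).comp_hasDerivAt τ h1
    rw [hd.deriv]; exact hmono _
  have hline : ∀ (x : E) (τ : ℝ), u (x + τ • e) = F x * g (inner ℝ e x + τ) := by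
    intro x τ; rw [hprod, hFe, hl]
  have hFne : ∀ x, F x ≠ 0 := by
    intro x h0
    have h := (hmonoline x) (zero_lt_one)
    simp only [hline, h0, zero_mul] at h
    exact lt_irrefl _ h
  have hginj : Function.Injective g := by
    intro s t hst
    by_contra hne
    have h := (hmonoline 0).injective.ne hne
    apply h
    show u (0 + s • e) = u (0 + t • e)
    rw [hline 0 s, hline 0 t, inner_zero_right, zero_add, zero_add, hst]
  obtain ⟨s0, hs0⟩ : ∃ s0, g s0 ≠ 0 := by
    by_contra h
    push Not at h
    exact absurd (hginj ((h 0).trans (h 1).symm)) (by norm_num)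
  have hF2 : ContDiff ℝ 2 F := by
    have : F = fun x => u (x + (s0 - inner ℝ e x) • e) / g s0 := by
      funext x
      rw [hline]
      have : inner ℝ e x + (s0 - inner ℝ e x) = s0 := by ring
      rw [this]
      field_simp
    rw [this]
    exact (hu.comp (contDiff_id.add
      ((contDiff_const.sub ((contDiff_const (c := e)).inner ℝ contDiff_id)).smul
        contDiff_const))).div_const _
  have hg_eq : ∀ τ, g τ = u (τ • e) / F 0 := by
    intro τ
    have h := hline 0 τ
    rw [zero_add, inner_zero_right, zero_add] at h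
    rw [h]
    field_simp [hFne 0]
  have hG2 : ContDiff ℝ 2 (fun x => g (inner ℝ e x)) := by
    have : (fun x => g (inner ℝ e x)) = fun x => u ((inner ℝ e x) • e) / F 0 :=
      funext (fun x => hg_eq _)
    rw [this]
    exact (hu.comp (((contDiff_const (c := e)).inner ℝ contDiff_id).smul
      contDiff_const)).div_const _
  have hcross : ∀ i, (∀ x, fderiv ℝ F x (b i) = 0) ∨
      (∀ x, fderiv ℝ (fun x => g (inner ℝ e x)) x (b i) = 0) := by
    intro i
    by_cases hi : i = i₀
    · left
      subst hi
      exact fderiv_eq_zero_of_invariant F (hF2.differentiable (by norm_num)) _ hFe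
    · right
      apply fderiv_eq_zero_of_invariant _ (hG2.differentiable (by norm_num))
      intro z τ
      have h0 : inner ℝ e (b i) = (0 : ℝ) := b.orthonormal.2 (Ne.symm hi)
      simp only [inner_add_right, inner_smul_right, h0, mul_zero, add_zero]
  have key : ∀ (x v : E) (s t : ℝ), inner ℝ e v = (0 : ℝ) →
      F x * F (x + v) * g s * g t * (F x ^ 2 - F (x + v) ^ 2) * (g s ^ 2 - g t ^ 2) = 0 := by
    intro x v s t hv
    have h := prod_core b u F (fun z => g (inner ℝ e z)) hF2 hG2 hcross hprod heq v
      ((t - s) • e) (fun z => hFe z (t - s))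
      (fun z => by simp only [inner_add_right, hv, add_zero])
      (x + (s - inner ℝ e x) • e)
    have a1 : F (x + (s - inner ℝ e x) • e) = F x := hFe x _
    have a2 : F (x + (s - inner ℝ e x) • e + v) = F (x + v) := by
      have : x + (s - inner ℝ e x) • e + v = x + v + (s - inner ℝ e x) • e := by abel
      rw [this]; exact hFe _ _
    have a3 : inner ℝ e (x + (s - inner ℝ e x) • e) = s := by rw [hl]; ring
    have a4 : inner ℝ e (x + (s - inner ℝ e x) • e + (t - s) • e) = t := by
      rw [hl, hl]; ring
    simp only [a1, a2, a3, a4] at h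
    exact h
  obtain ⟨s, t, hs, ht, hst⟩ : ∃ s t, g s ≠ 0 ∧ g t ≠ 0 ∧ g s ^ 2 ≠ g t ^ 2 := by
    by_contra hcon
    push Not at hcon
    have hvals : ∀ τ, g τ = 0 ∨ g τ = g s0 ∨ g τ = - g s0 := by
      intro τ
      by_cases h0 : g τ = 0
      · left; exact h0
      · right
        have h1 := hcon τ s0 h0 hs0
        have h2 : (g τ - g s0) * (g τ + g s0) = 0 := by ring_nf; linarith
        rcases mul_eq_zero.mp h2 with h | h
        · left; linarith
        · right; linarith
    have hinj' : Function.Injective (fun k : ℕ => g (k : ℝ)) :=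
      hginj.comp Nat.cast_injective
    have hcard : (Finset.image (fun k : ℕ => g (k : ℝ)) (Finset.range 4)).card = 4 := by
      rw [Finset.card_image_of_injective _ hinj', Finset.card_range]
    have hsub : Finset.image (fun k : ℕ => g (k : ℝ)) (Finset.range 4)
        ⊆ {0, g s0, - g s0} := by
      intro y hy
      obtain ⟨k, -, rfl⟩ := Finset.mem_image.mp hy
      simp only [Finset.mem_insert, Finset.mem_singleton]
      exact hvals k
    have h4 := Finset.card_le_card hsub
    have h3 : ({0, g s0, - g s0} : Finset ℝ).card ≤ 3 := Finset.card_le_three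
    omega
  have hsq : ∀ x y, F x ^ 2 = F y ^ 2 := by
    intro x y
    have hv0 : inner ℝ e ((y - x) - (inner ℝ e (y - x)) • e) = (0 : ℝ) := by
      rw [inner_sub_right, inner_smul_right, hee]; ring
    have hy : F (x + ((y - x) - (inner ℝ e (y - x)) • e)) = F y := by
      have : x + ((y - x) - (inner ℝ e (y - x)) • e)
          = y + (-(inner ℝ e (y - x))) • e := by rw [neg_smul]; abel
      rw [this]; exact hFe _ _
    have h := key x _ s t hv0
    rw [hy] at h
    have h1 : F x * F y * g s * g t ≠ 0 :=
      mul_ne_zero (mul_ne_zero (mul_ne_zero (hFne x) (hFne y)) hs) ht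
    have h2 : g s ^ 2 - g t ^ 2 ≠ 0 := sub_ne_zero.mpr hst
    rcases mul_eq_zero.mp h with h | h
    · rcases mul_eq_zero.mp h with h | h
      · exact absurd h h1
      · linarith
    · exact absurd h h2
  intro x y
  by_contra hne
  have hFc : Continuous F := hF2.continuous
  have hneg : F y = - F x := by
    have h1 := hsq x y
    have h2 : (F x - F y) * (F x + F y) = 0 := by ring_nf; linarith
    rcases mul_eq_zero.mp h2 with h | h
    · exact absurd (by linarith) hne
    · linarith
  have h0 : (0 : ℝ) ∈ Set.range F := by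
    rcases le_total (F x) 0 with h | h
    · exact intermediate_value_univ x y hFc ⟨h, by rw [hneg]; linarith⟩
    · exact intermediate_value_univ y x hFc ⟨by rw [hneg]; linarith, h⟩
  obtain ⟨z, hz⟩ := h0
  exact hFne z hz

end Vale.Agent.Lib.P134
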